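import Mathlib
import Vale.Agent.H26.P226.Main

namespace Vale.Agent.Results.P226.SmallOrLargeCells

open MeasureTheory ProbabilityTheory

/-- The standard Gaussian probability measure on `ℝ^d`. -/
noncomputable def stdGaussian (d : ℕ) : Measure (Fin d → ℝ) :=
  Measure.pi (fun _ => gaussianReal 0 1)

/-- The Gaussian first moment vector `z(A) = ∫_A x dγ_d(x)` (coordinatewise integral). -/
noncomputable def firstMoment (d : ℕ) (A : Set (Fin d → ℝ)) : Fin d → ℝ :=
  fun j => ∫ x in A, x j ∂(stdGaussian d)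

/-- `F(A₁, …, A_k) = ∑ᵢ |z(Aᵢ)|²`. -/
noncomputable def functionalF (d k : ℕ) (A : Fin k → Set (Fin d → ℝ)) : ℝ :=
  ∑ i, ∑ j, (firstMoment d (A i) j) ^ 2

/-- The propeller inequality holds in every dimension and for every number of cells as soon as all
cells have Gaussian measure at most `1/16`, or some cell has Gaussian measure at least `3/4`. -/
theorem result (d k : ℕ) (A : Fin k → Set (Fin d → ℝ)) (hm : ∀ i, MeasurableSet (A i))
    (hd : ∀ i j, i ≠ j → A i ∩ A j = ∅) (hU : ⋃ i, A i = Set.univ)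
    (h : (∀ i, stdGaussian d (A i) ≤ ENNReal.ofReal (1/16)) ∨
      ∃ i, ENNReal.ofReal (3/4) ≤ stdGaussian d (A i)) :
    functionalF d k A ≤ 9 / (8 * Real.pi) := by
  have hd' : Pairwise (Function.onFun Disjoint A) := by
    intro i j hij
    exact Set.disjoint_iff_inter_eq_empty.mpr (hd i j hij)
  have hfin : ∀ i, (Vale.Agent.H26.P226.γ d) (A i) ≠ ⊤ := fun i => measure_ne_top _ _
  rcases h with h | ⟨i, hi⟩
  · refine Vale.Agent.H26.P226.small_cells A hm hd' hU (fun i => ?_)
    have := ENNReal.toReal_mono ENNReal.ofReal_ne_top (h i)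
    rwa [ENNReal.toReal_ofReal (by norm_num)] at this
  · refine Vale.Agent.H26.P226.large_cell A hm hd' hU ⟨i, ?_⟩
    have := ENNReal.toReal_mono (hfin i) hi
    rwa [ENNReal.toReal_ofReal (by norm_num)] at this

end Vale.Agent.Results.P226.SmallOrLargeCells
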